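import Crest.Agent.N337.W.N0
import Crest.Agent.N337.L4.Ret
import Mathlib
import Crest.Agent.N337.Gas.Loop

-- ▼ part N337/W/B
section

/-!
# Row 337, ENG (B): one-point bounds in the green measure

* `b0` : `∑ Pw * lw = Zg * (Gi x x - 1)`.
* `b1` : crude bound `σ / (1 - σ)` for loops of weight at most `σ`.
* `b2` : loops that leave through `Out`, Green function of the model with the exit arc pinned and
  killed.
-/

set_option autoImplicit false
set_option linter.unusedSectionVars false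

namespace Crest.Agent.N337.WN

open Finset Equiv Matrix Function Crest.Agent.N337.Rep Crest.Agent.N337.LY0 Crest.Agent.N337.Arc

section gen
variable {S : Type} [Fintype S] [DecidableEq S]

/-- the green weight. -/
noncomputable def gw (π : Perm S) (b : S → ℝ) : ℝ := ∏ c, (1 - pr π b c)

/-- the green weight of the loops that miss `x`. -/
noncomputable def gx (π : Perm S) (b : S → ℝ) (x : S) : ℝ :=
  ∏ c ∈ univ.erase (o π x), (1 - pr π b c)

lemma lw_eq (π : Perm S) (b : S → ℝ) (x : S) : lw π b x = pr π b (o π x) * gx π b x := rfl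

lemma gw_eq (π : Perm S) (b : S → ℝ) (x : S) : gw π b = (1 - pr π b (o π x)) * gx π b x :=
  (mul_prod_erase _ _ (mem_univ _)).symm

lemma gx_eq (π : Perm S) (b : S → ℝ) (x : S) : gx π b x = gw π b + lw π b x := by
  rw [gw_eq π b x, lw_eq]; ring

lemma gx_nonneg (π : Perm S) {b : S → ℝ} (hb : ∀ v, 0 ≤ b v ∧ b v ≤ 1) (x : S) : 0 ≤ gx π b x :=
  prod_nonneg fun c _ => sub_nonneg.2 (pr_le_one (fun v => (hb v).1) (fun v => (hb v).2) c)

lemma gw_nonneg (π : Perm S) {b : S → ℝ} (hb : ∀ v, 0 ≤ b v ∧ b v ≤ 1) : 0 ≤ gw π b :=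
  prod_nonneg fun c _ => sub_nonneg.2 (pr_le_one (fun v => (hb v).1) (fun v => (hb v).2) c)

lemma aw_self (π : Perm S) (b : S → ℝ) (x : S) : aw π b (Pi.single x 1) x = 1 := by
  rw [aw, sum_eq_single 0]
  · simp
  · intro j hj hj0
    rw [Pi.single_eq_of_ne, zero_mul]
    exact fun h => hj0 (it_inj (mem_range.1 hj) (per_pos π x) h)
  · intro h; exact absurd (mem_range.2 (per_pos π x)) h

end gen

variable {Λ : Type} [Fintype Λ] [DecidableEq Λ] {T : ℕ} [NeZero T] (ex ey : Fin T → Λ)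
  {p : Fin T → ℝ} {b : Fin T × Λ → ℝ}

lemma sum_gw (p : Fin T → ℝ) (b : Fin T × Λ → ℝ) :
    ∑ ξ, Pw p ξ * gw (Sg ex ey ξ) b = Zg ex ey p b := avg_green ex ey p b

lemma Zg_pos (hp : ∀ s, 0 ≤ p s ∧ p s ≤ 1) (hb : Fld b) : 0 < Zg ex ey p b := hb.detA_pos ex ey hp

lemma Gf_single (p : Fin T → ℝ) (b : Fin T × Λ → ℝ) (v u : Fin T × Λ) :
    Gf ex ey p b (Pi.single v 1) u = Gi ex ey p b v u := by
  simp [Gf, Gi]

/-- **(B0)** total weight of the alive loops through a point. -/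
theorem b0 (hp : ∀ s, 0 ≤ p s ∧ p s ≤ 1) (hb : Fld b) (x : Fin T × Λ) :
    ∑ ξ, Pw p ξ * lw (Sg ex ey ξ) b x = Zg ex ey p b * (Gi ex ey p b x x - 1) := by
  have h := avg_cof ex ey hb hp (Pi.single x 1) x
  have e : ∀ ξ, (mat (Sg ex ey ξ) (fun _ => 1) b).det * ((Pi.single x 1 : _ → ℝ) ⬝ᵥ
      (mat (Sg ex ey ξ) (fun _ => 1) b)⁻¹ *ᵥ Pi.single x 1) = gx (Sg ex ey ξ) b x := by
    intro ξ
    have h1 := aw_eq (Sg ex ey ξ) b (Pi.single x 1) (hb.det_pos ex ey ξ).ne' x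
    rw [aw_self] at h1
    rw [det_mat1, ← gw, gw_eq _ b x, mul_right_comm, ← h1, one_mul]
  simp only [e, gx_eq, mul_add, sum_add_distrib, sum_gw, Gf_single] at h
  rw [mul_sub, mul_one, Zg, ← h, Zg]; ring

/-- **(B1)** crude bound. -/
theorem b1 (hp : ∀ s, 0 ≤ p s ∧ p s ≤ 1) (hb : ∀ v, 0 ≤ b v ∧ b v ≤ 1) {σ : ℝ} (h0 : 0 ≤ σ)
    (h1 : σ < 1) (W : (Fin T → Bool) → ℝ) (hW : ∀ ξ, W ξ ≤ 0 ∨
      ∃ x, pr (Sg ex ey ξ) b (o _ x) ≤ σ ∧ W ξ ≤ lw (Sg ex ey ξ) b x) :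
    ∑ ξ, Pw p ξ * W ξ ≤ Zg ex ey p b * (σ / (1 - σ)) := by
  have hσ : 0 < 1 - σ := sub_pos.2 h1
  rw [← sum_gw, sum_mul]
  refine sum_le_sum fun ξ _ => ?_
  rw [mul_assoc]
  refine mul_le_mul_of_nonneg_left ?_ (Pw_nonneg hp ξ)
  rcases hW ξ with h | ⟨x, hx, h⟩
  · exact h.trans (mul_nonneg (gw_nonneg _ hb) (div_nonneg h0 hσ.le))
  · refine h.trans ?_
    rw [lw_eq, gw_eq _ b x, mul_right_comm, ← mul_div_assoc]
    refine mul_le_mul_of_nonneg_right ?_ (gx_nonneg _ hb x)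
    rw [le_div_iff₀ hσ]; nlinarith

/-- keep going as long as the tip is not in `Out`. -/
def okO (Out : Fin T × Λ → Prop) (a : ℕ → Fin T × Λ) (i : ℕ) : Prop := ¬ Out (a i)

lemma rule_okO (Out : Fin T × Λ → Prop) : Rule (okO Out) := fun a a' i h h' => by
  unfold okO at *; rwa [h i le_rfl]

/-- the arc from `x` leaves at step `n + 1`. -/
def Exit (Out : Fin T × Λ → Prop) (x : Fin T × Λ) (n : ℕ) (ξ : Fin T → Bool) : Prop :=
  (∀ j ≤ n, ¬ Out (arc ex ey x ξ j)) ∧ Out (arc ex ey x ξ (n + 1))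

/-- the exit arc. -/
noncomputable def exA (x : Fin T × Λ) (n : ℕ) (ξ : Fin T → Bool) : Finset (Fin T × Λ) :=
  (range (n + 1)).image (arc ex ey x ξ)

variable {ex ey} {Out : Fin T × Λ → Prop} {x : Fin T × Λ} {n : ℕ} {ξ ξ' : Fin T → Bool}

lemma Exit.uniq {m : ℕ} (h : Exit ex ey Out x n ξ) (h' : Exit ex ey Out x m ξ) : n = m := by
  by_contra hne
  rcases Nat.lt_or_gt_of_ne hne with hl | hl
  exacts [h'.1 _ hl h.2, h.1 _ hl h'.2]

lemma Exit.Al_eq (h : Exit ex ey Out x n ξ) : Al ex ey (okO Out) x (n + 1) ξ = exA ex ey x n ξ := by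
  ext v
  simp only [mem_Al, exA, mem_image, mem_range]
  exact exists_congr fun i => and_congr_right fun hi =>
    and_iff_right fun j hj => h.1 j (by omega)

lemma Exit.lt_per (h : Exit ex ey Out x n ξ) : n + 1 < per (Sg ex ey ξ) x := by
  by_contra hh
  have h1 : arc ex ey x ξ ((n + 1) % per (Sg ex ey ξ) x) = arc ex ey x ξ (n + 1) :=
    Function.iterate_mod_minimalPeriod_eq
  have h2 := Nat.mod_lt (n + 1) (per_pos (Sg ex ey ξ) x)
  exact h.1 _ (by omega) (h1 ▸ h.2)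

lemma Exit.lt_card (h : Exit ex ey Out x n ξ) : n < Fintype.card (Fin T × Λ) := by
  have := h.lt_per
  have h2 : per (Sg ex ey ξ) x ≤ Fintype.card (Fin T × Λ) := Function.minimalPeriod_le_card
  omega

lemma exists_exit (hx : ¬ Out x) {v : Fin T × Λ} (hv : o (Sg ex ey ξ) v = o (Sg ex ey ξ) x)
    (ho : Out v) : ∃ n, Exit ex ey Out x n ξ := by
  classical
  have hv' : v ∈ ob (Sg ex ey ξ) (o _ x) := mem_filter.2 ⟨mem_univ _, hv⟩
  rw [ob_eq] at hv'
  obtain ⟨i, -, rfl⟩ := mem_image.1 hv'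
  have hex : ∃ i, Out (arc ex ey x ξ i) := ⟨i, ho⟩
  obtain ⟨n, hn⟩ : ∃ n, Nat.find hex = n + 1 :=
    Nat.exists_eq_succ_of_ne_zero fun h => hx (by simpa [h, arc_zero] using Nat.find_spec hex)
  exact ⟨n, fun j hj => Nat.find_min hex (by omega), hn ▸ Nat.find_spec hex⟩

lemma Exit.arc_eq (h : Exit ex ey Out x n ξ)
    (hh : ∀ s ∈ tch ex ey (exA ex ey x n ξ), ξ' s = ξ s) {i : ℕ} (hi : i ≤ n + 1) :
    arc ex ey x ξ' i = arc ex ey x ξ i :=
  agree (ok := okO Out) (t := n + 1) (by rwa [X, h.Al_eq]) i hi fun j hj => h.1 j (by omega)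

lemma Exit.congr (h : Exit ex ey Out x n ξ)
    (hh : ∀ s ∈ tch ex ey (exA ex ey x n ξ), ξ' s = ξ s) :
    Exit ex ey Out x n ξ' ∧ exA ex ey x n ξ' = exA ex ey x n ξ :=
  ⟨⟨fun j hj => by rw [h.arc_eq hh (by omega)]; exact h.1 j hj,
    by rw [h.arc_eq hh le_rfl]; exact h.2⟩,
    image_congr fun i hi => h.arc_eq hh (by have := mem_range.1 (mem_coe.1 hi); omega)⟩

lemma Exit.gx_eq (b : Fin T × Λ → ℝ) (x : Fin T × Λ) (n : ℕ) (ξ : Fin T → Bool) :
    gw (Sg ex ey ξ) (kill b (exA ex ey x n ξ)) = gx (Sg ex ey ξ) b x ∧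
      pr (Sg ex ey ξ) (kill b (exA ex ey x n ξ)) (o _ x) = 0 := by
  have h0 : pr (Sg ex ey ξ) (kill b (exA ex ey x n ξ)) (o _ x) = 0 :=
    pr_zero rfl (if_pos (mem_image.2 ⟨0, by simp, rfl⟩))
  refine ⟨?_, h0⟩
  rw [gw_eq _ _ x, h0, sub_zero, one_mul]
  refine prod_congr rfl fun c hc => ?_
  refine congrArg (1 - ·) (pr_congr fun v hv => if_neg fun hm => ?_)
  obtain ⟨i, -, rfl⟩ := mem_image.1 hm
  exact ne_of_mem_erase hc (hv.symm.trans (o_it _ i x))

lemma Exit.pr_le (h : Exit ex ey Out x n ξ) (hb : ∀ v, 0 ≤ b v ∧ b v ≤ 1) :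
    pr (Sg ex ey ξ) b (o _ x) ≤
      aw (Sg ex ey ξ) (kill b (exA ex ey x n ξ)) (Pi.single x 1) (arc ex ey x ξ (n + 1)) := by
  obtain ⟨j, hj⟩ := Nat.exists_eq_add_of_le h.lt_per.le
  have hk : ∀ v, 0 ≤ kill b (exA ex ey x n ξ) v ∧ kill b (exA ex ey x n ξ) v ≤ 1 := fun v => by
    unfold kill; split_ifs; exacts [⟨le_rfl, zero_le_one⟩, hb v]
  refine le_trans ?_ (aw_ge _ hk (fun v => by rw [Pi.single_apply]; split_ifs <;> norm_num) _ j)
  have e : ∀ i, (Sg ex ey ξ)^[i] (arc ex ey x ξ (n + 1)) = (Sg ex ey ξ)^[n + 1 + i] x := fun i =>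
    (arc_add ex ey x ξ (n + 1) i).symm
  simp only [e]
  rw [← hj, it_per, Pi.single_eq_same, one_mul, pr, prod_ob, hj, prod_range_add]
  refine (mul_le_of_le_one_left (prod_nonneg fun i _ => (hb _).1)
    (prod_le_one (fun i _ => (hb _).1) fun i _ => (hb _).2)).trans (le_of_eq ?_)
  refine prod_congr rfl fun i hi => (if_neg fun hm => ?_).symm
  obtain ⟨l, hl, hl'⟩ := mem_image.1 hm
  have h1 := mem_range.1 hi
  have h2 := mem_range.1 hl
  have := it_inj (π := Sg ex ey ξ) (x := x) (i := l) (j := n + 1 + i) (by omega) (by omega) hl'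
  omega

/-- the conditional bound given the exit arc. -/
lemma Exit.cond (h : Exit ex ey Out x n ξ) (hp : ∀ s, 0 ≤ p s ∧ p s ≤ 1) (hb : Fld b) {γ : ℝ}
    (h1 : γ < 1) (hγ : Gi ex ey (pin p (tch ex ey (exA ex ey x n ξ)) ξ) (kill b (exA ex ey x n ξ))
      x (arc ex ey x ξ (n + 1)) ≤ γ) :
    ∑ ξ', Pw (pin p (tch ex ey (exA ex ey x n ξ)) ξ) ξ' * lw (Sg ex ey ξ') b x ≤
      γ / (1 - γ) * ∑ ξ', Pw (pin p (tch ex ey (exA ex ey x n ξ)) ξ) ξ' * gw (Sg ex ey ξ') b := by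
  set p' := pin p (tch ex ey (exA ex ey x n ξ)) ξ with hp'
  set b' := kill b (exA ex ey x n ξ) with hb'
  have hq := pin_mem hp (tch ex ey (exA ex ey x n ξ)) ξ
  have hc := avg_cof ex ey (hb.kill (exA ex ey x n ξ)) hq (Pi.single x 1) (arc ex ey x ξ (n + 1))
  rw [Gf_single] at hc
  have e1 : ∑ ξ', Pw p' ξ' * lw (Sg ex ey ξ') b x ≤ Zg ex ey p' b' * γ := by
    refine le_trans ?_ (hc.le.trans (mul_le_mul_of_nonneg_left hγ (Zg_pos ex ey hq (hb.kill _)).le))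
    refine sum_le_sum fun ξ' _ => ?_
    by_cases hw : Pw p' ξ' = 0
    · rw [← hp', hw, zero_mul, zero_mul]
    refine mul_le_mul_of_nonneg_left ?_ (Pw_nonneg hq ξ')
    obtain ⟨h2, h3⟩ := h.congr (Pw_pin_supp hw)
    have h4 := Exit.gx_eq (ex := ex) (ey := ey) b x n ξ'
    have h5 := h2.pr_le hb.mem
    rw [h3, h.arc_eq (Pw_pin_supp hw) le_rfl, aw_eq _ _ _ ((hb.kill _).det_pos ex ey ξ').ne',
      ← h.arc_eq (Pw_pin_supp hw) le_rfl, show o (Sg ex ey ξ') (arc ex ey x ξ' (n + 1)) = o _ x from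
        o_it _ _ x, ← h3, h4.2, sub_zero, one_mul, h3, h.arc_eq (Pw_pin_supp hw) le_rfl] at h5
    rw [det_mat1, ← gw, ← h3, h4.1, h3, lw_eq, mul_comm]
    exact mul_le_mul_of_nonneg_left h5 (gx_nonneg _ hb.mem x)
  have e2 : Zg ex ey p' b' = ∑ ξ', Pw p' ξ' * gw (Sg ex ey ξ') b +
      ∑ ξ', Pw p' ξ' * lw (Sg ex ey ξ') b x := by
    rw [← sum_gw, ← sum_add_distrib]
    refine sum_congr rfl fun ξ' _ => ?_
    by_cases hw : Pw p' ξ' = 0
    · simp [hw]
    rw [← mul_add, ← WN.gx_eq, hb', ← (h.congr (Pw_pin_supp hw)).2, (Exit.gx_eq b x n ξ').1]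
  rw [div_mul_eq_mul_div, le_div_iff₀ (sub_pos.2 h1)]
  rw [e2] at e1
  linarith

variable (ex ey)

/-- **(B2)** loops through `x` whose exit arc is good. -/
theorem b2 (hp : ∀ s, 0 ≤ p s ∧ p s ≤ 1) (hb : Fld b) {γ : ℝ} (h0 : 0 ≤ γ) (h1 : γ < 1)
    (Out : Fin T × Λ → Prop) (x : Fin T × Λ) (W : (Fin T → Bool) → ℝ)
    (hW : ∀ ξ, W ξ ≤ 0 ∨ (W ξ ≤ lw (Sg ex ey ξ) b x ∧ ∃ n, Exit ex ey Out x n ξ ∧
      Gi ex ey (pin p (tch ex ey (exA ex ey x n ξ)) ξ) (kill b (exA ex ey x n ξ))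
        x (arc ex ey x ξ (n + 1)) ≤ γ)) :
    ∑ ξ, Pw p ξ * W ξ ≤ Zg ex ey p b * (γ / (1 - γ)) := by
  classical
  set I : ℕ → (Fin T → Bool) → ℝ := fun n ξ => if Exit ex ey Out x n ξ ∧
    Gi ex ey (pin p (tch ex ey (exA ex ey x n ξ)) ξ) (kill b (exA ex ey x n ξ))
      x (arc ex ey x ξ (n + 1)) ≤ γ then 1 else 0 with hI
  set N := Fintype.card (Fin T × Λ)
  have hP := pr_pb hp
  have hI0 : ∀ n ξ, 0 ≤ I n ξ := fun n ξ => by simp only [hI]; split_ifs <;> norm_num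
  have hγ : 0 ≤ γ / (1 - γ) := div_nonneg h0 (sub_pos.2 h1).le
  have hS : ∀ n, PH.Stop (E := fun _ : Fin T => Bool) (X ex ey (okO Out) x (n + 1)) := fun n ξ ξ' h => by
    rw [X, X, Al_stop (rule_okO Out) h]
  have hM : ∀ n, PH.Meas (E := fun _ : Fin T => Bool) (X ex ey (okO Out) x (n + 1)) (I n) := by
    intro n ξ ξ' h
    have key : ∀ ξ ξ' : Fin T → Bool, (∀ s ∈ X ex ey (okO Out) x (n + 1) ξ, ξ' s = ξ s) →
        I n ξ = 1 → I n ξ' = 1 := by
      intro ξ ξ' h h'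
      simp only [hI, ite_eq_left_iff, zero_ne_one, imp_false, not_not] at h' ⊢
      rw [X, h'.1.Al_eq] at h
      obtain ⟨h2, h3⟩ := h'.1.congr h
      rw [h3, pin_congr p h, h'.1.arc_eq h le_rfl]
      exact ⟨h2, h'.2⟩
    have h' : ∀ s ∈ X ex ey (okO Out) x (n + 1) ξ', ξ s = ξ' s := fun s hs =>
      (h s (hS n ξ ξ' h ▸ hs)).symm
    have k1 := key ξ ξ' h
    have k2 := key ξ' ξ h'
    simp only [hI] at k1 k2 ⊢
    split_ifs at k1 k2 ⊢ <;> simp_all
  calc ∑ ξ, Pw p ξ * W ξ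
      ≤ PH.ex (pb p) fun ξ => ∑ n ∈ range N, I n ξ * lw (Sg ex ey ξ) b x := by
        refine hP.ex_mono fun ξ => ?_
        have hn := fun n => mul_nonneg (hI0 n ξ) (lw_nonneg (Sg ex ey ξ) hb.mem x)
        rcases hW ξ with h | ⟨h, n, h2, h3⟩
        · exact h.trans (sum_nonneg fun n _ => hn n)
        · refine h.trans (le_trans ?_ (single_le_sum (fun n _ => hn n) (mem_range.2 h2.lt_card)))
          simp only [hI, if_pos (And.intro h2 h3), one_mul, le_refl]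
    _ ≤ ∑ n ∈ range N, γ / (1 - γ) * PH.ex (pb p) fun ξ => I n ξ * gw (Sg ex ey ξ) b := by
        rw [PH.ex_sum]
        refine sum_le_sum fun n _ => ?_
        rw [← (hS n).ex_mul_P hP (hM n), ← (hS n).ex_mul_P hP (hM n) fun ξ => gw (Sg ex ey ξ) b,
          ← PH.ex_mul]
        refine hP.ex_mono fun ξ => ?_
        simp only [hI]
        split_ifs with h
        · rw [one_mul, one_mul, P_pin, P_pin, X, h.1.Al_eq]
          exact h.1.cond hp hb h1 h.2
        · simp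
    _ ≤ Zg ex ey p b * (γ / (1 - γ)) := by
        rw [← mul_sum, ← PH.ex_sum, mul_comm, ← sum_gw]
        refine mul_le_mul_of_nonneg_right (hP.ex_mono fun ξ => ?_) hγ
        rw [← sum_mul]
        refine mul_le_of_le_one_left (gw_nonneg _ hb.mem) ?_
        simp only [hI, sum_boole, Nat.cast_le_one]
        exact card_le_one.2 fun n hn m hm => (mem_filter.1 hn).2.1.uniq (mem_filter.1 hm).2.1

end Crest.Agent.N337.WN
end

-- ▼ part N337/W/Link
section

/-!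
# Row 337, ENG: link sums and the geometric mean over levels (abstract part)

`c Y` is the rate of ONE loop covering the set `Y` of witness points (linearly ordered, DFS order).
* `gm_bound` : from weighted (N0), a one-point bound `B`, row sums `r i` of the Green majorant over
  `i`-separated sets and point weights `a`, `c Y ≤ B(first)^wB * ∏_{links (u,v) of Y} eta u v`.
* `link_sum` : the sum over all `Y` of such products is a geometric series.
* `drift` : both together, with point prices `θ`, allowed first points `F`, allowed links `Lk`.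
-/

set_option autoImplicit false
set_option linter.unusedSectionVars false

namespace Crest.Agent.N337.WN

open Finset

section link
variable {ι : Type} [LinearOrder ι]

/-- product of `η` over the consecutive pairs of `x :: l`. -/
def ch (η : ι → ι → ℝ) : ι → List ι → ℝ
  | _, [] => 1
  | x, z :: l => η x z * ch η z l

/-- `δ (first) * ∏ links`. -/
def hd (δ : ι → ℝ) (η : ι → ι → ℝ) : List ι → ℝ
  | [] => 0
  | x :: l => δ x * ch η x l

lemma hd_cons (δ : ι → ℝ) (η : ι → ι → ℝ) (x : ι) (l : List ι) :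
    hd δ η (x :: l) = δ x * ch η x l := rfl

lemma ch_nonneg {η : ι → ι → ℝ} (h : ∀ u v, 0 ≤ η u v) (x : ι) (l : List ι) : 0 ≤ ch η x l := by
  induction l generalizing x with
  | nil => exact zero_le_one
  | cons z l ih => exact mul_nonneg (h _ _) (ih z)

lemma hd_nonneg {δ : ι → ℝ} {η : ι → ι → ℝ} (hδ : ∀ u, 0 ≤ δ u) (h : ∀ u v, 0 ≤ η u v)
    (l : List ι) : 0 ≤ hd δ η l := by
  cases l with
  | nil => exact le_rfl
  | cons x l => exact mul_nonneg (hδ x) (ch_nonneg h x l)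

lemma ch_mul (η η' : ι → ι → ℝ) (x : ι) (l : List ι) :
    ch (fun u v => η u v * η' u v) x l = ch η x l * ch η' x l := by
  induction l generalizing x with
  | nil => simp [ch]
  | cons z l ih => simp only [ch, ih]; ring

lemma ch_pt (f : ι → ℝ) (x : ι) (l : List ι) : ch (fun _ v => f v) x l = (l.map f).prod := by
  induction l generalizing x with
  | nil => simp [ch]
  | cons z l ih => simp only [ch, ih, List.map_cons, List.prod_cons]

lemma sort_insert_min {a : ι} {s : Finset ι} (h : ∀ x ∈ s, a < x) {Y : Finset ι} (hY : Y ⊆ s) :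
    (insert a Y).sort (· ≤ ·) = a :: Y.sort (· ≤ ·) :=
  sort_insert (r := (· ≤ ·)) (fun _ hb => (h _ (hY hb)).le) fun ha => lt_irrefl _ (h _ (hY ha))

lemma ch_sum {η : ι → ι → ℝ} (h : ∀ u v, 0 ≤ η u v) {κ : ℝ} (hκ : κ < 1) (s : Finset ι)
    (hs : ∀ u ∈ s, ∑ v ∈ s with u < v, η u v ≤ κ) (x : ι) :
    ∑ Y ∈ s.powerset, ch η x (Y.sort (· ≤ ·)) ≤ 1 + (∑ v ∈ s, η x v) / (1 - κ) := by
  induction s using Finset.induction_on_min generalizing x with
  | empty => simp [ch]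
  | insert a s ha ih =>
    have hna : a ∉ s := fun h' => lt_irrefl _ (ha a h')
    have hs' : ∀ u ∈ s, ∑ v ∈ s with u < v, η u v ≤ κ := fun u hu =>
      (sum_le_sum_of_subset_of_nonneg (filter_subset_filter _ (subset_insert a s))
        fun v _ _ => h u v).trans (hs u (mem_insert_of_mem hu))
    have h1 : ∑ v ∈ s, η a v ≤ κ :=
      (sum_le_sum_of_subset_of_nonneg (fun v hv => mem_filter.2 ⟨mem_insert_of_mem hv, ha v hv⟩)
        fun v _ _ => h a v).trans (hs a (mem_insert_self a s))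
    have h0 : 0 < 1 - κ := sub_pos.2 hκ
    rw [sum_powerset_insert hna, sum_insert hna,
      sum_congr rfl fun Y hY => congrArg (ch η x) (sort_insert_min ha (mem_powerset.1 hY))]
    simp only [ch, ← mul_sum]
    have h2 : ∑ Y ∈ s.powerset, ch η a (Y.sort (· ≤ ·)) ≤ 1 / (1 - κ) := by
      refine (ih hs' a).trans ?_
      rw [le_div_iff₀ h0, add_mul, div_mul_cancel₀ _ h0.ne']; linarith
    have h3 := mul_le_mul_of_nonneg_left h2 (h x a)
    have h4 := ih hs' x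
    rw [add_div, div_eq_mul_one_div (η x a)]
    linarith

/-- the link sum. -/
theorem link_sum {δ : ι → ℝ} {η : ι → ι → ℝ} (hδ : ∀ u, 0 ≤ δ u) (h : ∀ u v, 0 ≤ η u v) {κ : ℝ}
    (hκ : κ < 1) (s : Finset ι) (hs : ∀ u ∈ s, ∑ v ∈ s with u < v, η u v ≤ κ) :
    ∑ Y ∈ s.powerset, hd δ η (Y.sort (· ≤ ·)) ≤ (∑ v ∈ s, δ v) / (1 - κ) := by
  induction s using Finset.induction_on_min with
  | empty => simp [hd]
  | insert a s ha ih =>
    have hna : a ∉ s := fun h' => lt_irrefl _ (ha a h')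
    have hs' : ∀ u ∈ s, ∑ v ∈ s with u < v, η u v ≤ κ := fun u hu =>
      (sum_le_sum_of_subset_of_nonneg (filter_subset_filter _ (subset_insert a s))
        fun v _ _ => h u v).trans (hs u (mem_insert_of_mem hu))
    have h1 : ∑ v ∈ s, η a v ≤ κ :=
      (sum_le_sum_of_subset_of_nonneg (fun v hv => mem_filter.2 ⟨mem_insert_of_mem hv, ha v hv⟩)
        fun v _ _ => h a v).trans (hs a (mem_insert_self a s))
    have h0 : 0 < 1 - κ := sub_pos.2 hκ
    rw [sum_powerset_insert hna, sum_insert hna,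
      sum_congr rfl fun Y hY => congrArg (hd δ η) (sort_insert_min ha (mem_powerset.1 hY))]
    simp only [hd_cons, ← mul_sum]
    have h2 : ∑ Y ∈ s.powerset, ch η a (Y.sort (· ≤ ·)) ≤ 1 / (1 - κ) := by
      refine (ch_sum h hκ s hs' a).trans ?_
      rw [le_div_iff₀ h0, add_mul, div_mul_cancel₀ _ h0.ne']; linarith
    have h3 := mul_le_mul_of_nonneg_left h2 (hδ a)
    have h4 := ih hs'
    rw [add_div, div_eq_mul_one_div (δ a)]
    linarith

/-- the points whose link to the predecessor has level `> i`. -/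
def sel (ℓ : ι → ι → ℕ) (i : ℕ) : ι → List ι → List ι
  | _, [] => []
  | x, z :: l => if i < ℓ x z then z :: sel ℓ i z l else sel ℓ i z l

lemma sel_sub (ℓ : ι → ι → ℕ) (i : ℕ) (x : ι) (l : List ι) : (sel ℓ i x l).Sublist l := by
  induction l generalizing x with
  | nil => exact List.Sublist.refl _
  | cons z l ih =>
    simp only [sel]; split_ifs
    exacts [(ih z).cons_cons z, (ih z).cons z]

lemma sel_far {ℓ : ι → ι → ℕ} (hℓ : ∀ u w v, u < w → w < v → ℓ w v ≤ ℓ u v) (i : ℕ) (x : ι)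
    (l : List ι) (hl : (x :: l).Pairwise (· < ·)) :
    ∀ v ∈ sel ℓ i x l, ∀ u, u ≤ x → i < ℓ u v := by
  induction l generalizing x with
  | nil => simp [sel]
  | cons z l ih =>
    have hxz : x < z := List.rel_of_pairwise_cons hl List.mem_cons_self
    have h2 := ih z hl.of_cons
    intro v hv u hu
    simp only [sel] at hv
    split_ifs at hv with h
    · rcases List.mem_cons.1 hv with rfl | hv
      · rcases hu.lt_or_eq with hu | rfl
        · exact h.trans_le (hℓ u x v hu hxz)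
        · exact h
      · exact h2 v hv u (hu.trans hxz.le)
    · exact h2 v hv u (hu.trans hxz.le)

lemma sel_pair {ℓ : ι → ι → ℕ} (hℓ : ∀ u w v, u < w → w < v → ℓ w v ≤ ℓ u v) (i : ℕ) (x : ι)
    (l : List ι) (hl : (x :: l).Pairwise (· < ·)) :
    (x :: sel ℓ i x l).Pairwise fun u v => i < ℓ u v := by
  induction l generalizing x with
  | nil => simp [sel]
  | cons z l ih =>
    refine List.pairwise_cons.2 ⟨fun v hv => sel_far hℓ i x _ hl v hv x le_rfl, ?_⟩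
    have := ih z hl.of_cons
    simp only [sel]; split_ifs
    exacts [this, this.of_cons]

lemma ch_sel (ℓ : ι → ι → ℕ) (i : ℕ) (ρ : ℝ) (x : ι) (l : List ι) :
    ch (fun u v => if i < ℓ u v then ρ else 1) x l = ρ ^ (sel ℓ i x l).length := by
  induction l generalizing x with
  | nil => simp [ch, sel]
  | cons z l ih =>
    simp only [ch, sel, ih]; split_ifs
    · rw [List.length_cons, pow_succ']
    · rw [one_mul]

lemma ch_prod (f : ℕ → ι → ι → ℝ) (L : ℕ) (x : ι) (l : List ι) :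
    ch (fun u v => ∏ i ∈ range L, f i u v) x l = ∏ i ∈ range L, ch (f i) x l := by
  induction L with
  | zero => simpa using ch_pt (fun _ => (1 : ℝ)) x l
  | succ L ih => simp only [prod_range_succ, ch_mul, ih]

end link

lemma gmean {c : ℝ} (h0 : 0 ≤ c) (h1 : c ≤ 1) {κ : Type} (s : Finset κ) {A w : κ → ℝ}
    (hA : ∀ i ∈ s, c ≤ A i) (hw : ∀ i ∈ s, 0 ≤ w i) (hs : ∑ i ∈ s, w i ≤ 1) :
    c ≤ ∏ i ∈ s, A i ^ w i := by
  calc c = c ^ (1 : ℝ) := (Real.rpow_one c).symm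
    _ ≤ c ^ (∑ i ∈ s, w i) := Real.rpow_le_rpow_of_exponent_ge' h0 h1 (sum_nonneg hw) hs
    _ = ∏ i ∈ s, c ^ w i := Real.rpow_sum_of_nonneg h0 hw
    _ ≤ _ := prod_le_prod (fun i _ => Real.rpow_nonneg h0 _) fun i hi =>
        Real.rpow_le_rpow h0 (hA i hi) (hw i hi)

section gm
variable {ι : Type} [LinearOrder ι]

/-- what weighted (N0) delivers for a covering rate `c` and a Green majorant `g` on `X`. -/
structure Cov (X : Finset ι) (c : Finset ι → ℝ) (g : ι → ι → ℝ) : Prop where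
  nonneg : ∀ Y, 0 ≤ c Y
  le_one : ∀ Y, c Y ≤ 1
  anti : ∀ Y' Y, Y' ⊆ Y → Y ⊆ X → Y'.Nonempty → c Y ≤ c Y'
  g0 : ∀ v u, 0 ≤ g v u
  n0 : ∀ Y, Y ⊆ X → Even Y.card → Y.Nonempty → ∀ a : ι → ℝ, (∀ v ∈ Y, 0 < a v) → ∀ q : ℝ,
    ∑ v ∈ Y, ∑ u ∈ Y.erase v, a v * a u * g v u ≤ q →
      c Y ≤ 2 ^ Y.card * Real.exp q / ∏ v ∈ Y, a v

variable {X : Finset ι} {c : Finset ι → ℝ} {g : ι → ι → ℝ}

lemma Cov.even (H : Cov X c g) {Y : Finset ι} (hY : Y ⊆ X) (he : Even Y.card) {a : ι → ℝ}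
    (ha : ∀ v ∈ Y, 0 < a v) (hr : ∀ v ∈ Y, ∑ u ∈ Y.erase v, a v * a u * g v u ≤ 1) :
    c Y ≤ ∏ v ∈ Y, 6 / a v := by
  rcases Y.eq_empty_or_nonempty with rfl | hne
  · simpa using H.le_one ∅
  refine (H.n0 Y hY he hne a ha Y.card ((sum_le_sum hr).trans (by simp))).trans ?_
  rw [prod_div_distrib, prod_const]
  refine div_le_div_of_nonneg_right ?_ (prod_pos ha).le
  rw [← Real.exp_one_pow, ← mul_pow]
  exact pow_le_pow_left₀ (by positivity) (by linarith [Real.exp_one_lt_d9]) _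

/-- drop any one point. -/
lemma Cov.drop (H : Cov X c g) {Y : Finset ι} (hY : Y ⊆ X) {x : ι} (hx : x ∈ Y) {a : ι → ℝ}
    (ha : ∀ v ∈ Y, 6 ≤ a v) (hr : ∀ v ∈ Y, ∑ u ∈ Y.erase v, a v * a u * g v u ≤ 1) :
    c Y ≤ ∏ v ∈ Y.erase x, 6 / a v := by
  have ha0 : ∀ v ∈ Y, 0 < a v := fun v hv => lt_of_lt_of_le (by norm_num) (ha v hv)
  rcases Nat.even_or_odd Y.card with he | ho
  · refine (H.even hY he ha0 hr).trans ?_
    rw [← mul_prod_erase _ _ hx]
    exact mul_le_of_le_one_left (prod_nonneg fun v hv =>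
      (div_pos (by norm_num) (ha0 v (mem_of_mem_erase hv))).le) ((div_le_one (ha0 x hx)).2 (ha x hx))
  · rcases (Y.erase x).eq_empty_or_nonempty with h | h
    · rw [h]; simpa using H.le_one Y
    refine (H.anti _ Y (erase_subset x Y) hY h).trans (H.even ((erase_subset x Y).trans hY) ?_
      (fun v hv => ha0 v (mem_of_mem_erase hv)) fun v hv => le_trans ?_ (hr v (mem_of_mem_erase hv)))
    · rw [card_erase_of_mem hx]; exact Nat.Odd.sub_odd ho odd_one
    · exact sum_le_sum_of_subset_of_nonneg (erase_subset_erase v (erase_subset x Y))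
        fun u hu _ => mul_nonneg (mul_nonneg (ha0 v (mem_of_mem_erase hv)).le
          (ha0 u (mem_of_mem_erase hu)).le) (H.g0 v u)

/-- the data of a witness set: levels `ℓ`, level row sums `r`, point weights `a`. -/
structure Tree (X : Finset ι) (g : ι → ι → ℝ) (ℓ : ι → ι → ℕ) (L : ℕ) (r : ℕ → ℝ)
    (a : ι → ℝ) : Prop where
  mono : ∀ u w v, u < w → w < v → ℓ w v ≤ ℓ u v
  rpos : ∀ i < L, 0 < r i
  rle : ∀ i < L, 36 * r i ≤ 1
  row : ∀ i < L, ∀ Y ⊆ X, (∀ u ∈ Y, ∀ v ∈ Y, u < v → i < ℓ u v) →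
    ∀ v ∈ Y, ∑ u ∈ Y.erase v, g v u ≤ r i
  age : ∀ v ∈ X, 6 ≤ a v
  arow : ∀ v ∈ X, ∑ u ∈ X.erase v, a v * a u * g v u ≤ 1

/-- the price of a link. -/
noncomputable def eta (ℓ : ι → ι → ℕ) (L : ℕ) (r w : ℕ → ℝ) (a : ι → ℝ) (wA : ℝ) (u v : ι) : ℝ :=
  (6 / a v) ^ wA * ∏ i ∈ range L, if i < ℓ u v then (6 * √(r i)) ^ w i else 1

variable {ℓ : ι → ι → ℕ} {L : ℕ} {r w : ℕ → ℝ} {a B : ι → ℝ} {wA wB : ℝ}

lemma Cov.level (H : Cov X c g) (Tt : Tree X g ℓ L r a) {Y : Finset ι} (hY : Y ⊆ X) {x : ι}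
    {l : List ι} (hl : Y.sort (· ≤ ·) = x :: l) {i : ℕ} (hi : i < L) :
    c Y ≤ (6 * √(r i)) ^ (sel ℓ i x l).length := by
  have hp : (x :: l).Pairwise (· < ·) := hl ▸ (Y.sortedLT_sort).pairwise
  have hp' : (x :: sel ℓ i x l).Pairwise (· < ·) := hp.sublist ((sel_sub ℓ i x l).cons_cons x)
  have hnd : (x :: sel ℓ i x l).Nodup := hp'.imp fun h => h.ne
  set Y' := (x :: sel ℓ i x l).toFinset with hY'
  have hsub : Y' ⊆ Y := fun v hv => by
    rw [← mem_sort (· ≤ ·), hl]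
    exact ((sel_sub ℓ i x l).cons_cons x).subset (List.mem_toFinset.1 hv)
  have hx : x ∈ Y' := List.mem_toFinset.2 List.mem_cons_self
  have hr := Tt.rpos i hi
  have hs : 0 < √(r i) := Real.sqrt_pos.2 hr
  have hsep : ∀ u ∈ Y', ∀ v ∈ Y', u < v → i < ℓ u v := by
    have h2 : (x :: sel ℓ i x l).Pairwise fun u v => u < v ∧ i < ℓ u v :=
      hp'.and (sel_pair Tt.mono i x l hp)
    have h3 : (x :: sel ℓ i x l).Pairwise fun u v => (u < v → i < ℓ u v) ∧ (v < u → i < ℓ v u) :=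
      h2.imp fun h => ⟨fun _ => h.2, fun h' => absurd h.1 h'.not_gt⟩
    intro u hu v hv huv
    have : Std.Symm fun u v => (u < v → i < ℓ u v) ∧ (v < u → i < ℓ v u) :=
      ⟨fun _ _ h => ⟨h.2, h.1⟩⟩
    exact (h3.forall (List.mem_toFinset.1 hu) (List.mem_toFinset.1 hv) huv.ne).1 huv
  refine (H.anti Y' Y hsub hY ⟨x, hx⟩).trans ((H.drop (hsub.trans hY) hx
    (a := fun _ => (√(r i))⁻¹) (fun v _ => ?_) fun v hv => ?_).trans (le_of_eq ?_))
  · rw [le_inv_comm₀ (by norm_num) hs, Real.sqrt_le_left (by norm_num)]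
    linarith [Tt.rle i hi]
  · rw [← mul_sum, ← mul_inv, Real.mul_self_sqrt hr.le, inv_mul_le_iff₀ hr, mul_one]
    exact Tt.row i hi Y' (hsub.trans hY) hsep v hv
  · rw [prod_const, card_erase_of_mem hx, List.toFinset_card_of_nodup hnd, List.length_cons,
      Nat.add_sub_cancel, div_inv_eq_mul]

/-- **geometric mean over the levels**. -/
theorem gm_bound (H : Cov X c g) (Tt : Tree X g ℓ L r a) (hB : ∀ x ∈ X, c {x} ≤ B x)
    (hw : ∀ i, 0 ≤ w i) (hA : 0 ≤ wA) (hwB : 0 ≤ wB) (hs : ∑ i ∈ range L, w i + wA + wB ≤ 1)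
    {Y : Finset ι} (hY : Y ⊆ X) (hne : Y.Nonempty) :
    c Y ≤ hd (fun x => B x ^ wB) (eta ℓ L r w a wA) (Y.sort (· ≤ ·)) := by
  obtain ⟨x, l, hl⟩ : ∃ x l, Y.sort (· ≤ ·) = x :: l := by
    cases h : Y.sort (· ≤ ·) with
    | nil => exact absurd (by rw [← length_sort (· ≤ ·), h]; rfl) hne.card_pos.ne'
    | cons x l => exact ⟨x, l, rfl⟩
  have hx : x ∈ Y := by rw [← mem_sort (· ≤ ·), hl]; exact List.mem_cons_self
  have hnd : (x :: l).Nodup := hl ▸ sort_nodup Y _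
  have hYe : Y.erase x = l.toFinset := by
    ext v
    rw [mem_erase, ← mem_sort (· ≤ ·), hl, List.mem_toFinset, List.mem_cons]
    exact ⟨fun h => h.2.resolve_left h.1,
      fun h => ⟨fun e => (List.nodup_cons.1 hnd).1 (e ▸ h), Or.inr h⟩⟩
  have ha0 : ∀ v ∈ Y, 0 < a v := fun v hv => lt_of_lt_of_le (by norm_num) (Tt.age v (hY hv))
  have h1 : c Y ≤ B x := (H.anti {x} Y (singleton_subset_iff.2 hx) hY (singleton_nonempty x)).trans
    (hB x (hY hx))
  have h2 : c Y ≤ ∏ v ∈ Y.erase x, 6 / a v := H.drop hY hx (fun v hv => Tt.age v (hY hv))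
    fun v hv => le_trans (sum_le_sum_of_subset_of_nonneg (erase_subset_erase v hY) fun u hu _ =>
      mul_nonneg (mul_nonneg (ha0 v hv).le (le_trans (by norm_num)
        (Tt.age u (mem_of_mem_erase hu)))) (H.g0 v u)) (Tt.arow v (hY hv))
  have key := gmean (H.nonneg Y) (H.le_one Y) (insertNone (insertNone (range L)))
    (A := fun o => o.elim (B x) fun o => o.elim (∏ v ∈ Y.erase x, 6 / a v)
      fun i => (6 * √(r i)) ^ (sel ℓ i x l).length)
    (w := fun o => o.elim wB fun o => o.elim wA w)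
    (by rintro (_ | _ | i) hi
        exacts [h1, h2, H.level Tt hY hl (by simpa using hi)])
    (by rintro (_ | _ | i) _
        exacts [hwB, hA, hw i])
    (by simp only [sum_insertNone, Option.elim]; linarith)
  simp only [prod_insertNone, Option.elim] at key
  refine key.trans (le_of_eq ?_)
  rw [hl, hd]
  unfold eta
  rw [ch_mul, ch_prod, ch_pt]
  congr 2
  · rw [← Real.finset_prod_rpow _ _ fun v hv => (div_pos (by norm_num)
      (ha0 v (mem_of_mem_erase hv))).le, hYe, List.prod_toFinset _ (List.nodup_cons.1 hnd).2]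
  · refine prod_congr rfl fun i _ => ?_
    rw [ch_sel, ← Real.rpow_natCast, ← Real.rpow_natCast, ← Real.rpow_mul (by positivity),
      ← Real.rpow_mul (by positivity), mul_comm (w i)]

lemma eta_nonneg (ha : ∀ v, 0 ≤ a v) (u v : ι) : 0 ≤ eta ℓ L r w a wA u v :=
  mul_nonneg (Real.rpow_nonneg (div_nonneg (by norm_num) (ha v)) _)
    (prod_nonneg fun i _ => by split_ifs <;> positivity)

lemma ch_ind {Lk : ι → ι → Prop} [DecidableRel Lk] (η : ι → ι → ℝ) (x : ι) (l : List ι)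
    (h : (x :: l).IsChain Lk) : ch (fun u v => if Lk u v then η u v else 0) x l = ch η x l := by
  induction l generalizing x with
  | nil => rfl
  | cons z l ih =>
    rw [List.isChain_cons_cons] at h
    simp only [ch, if_pos h.1, ih z h.2]

lemma chain_of {Lk : ι → ι → Prop} (x : ι) (l : List ι) (hp : (x :: l).Pairwise (· < ·))
    (h : ∀ u ∈ x :: l, ∀ v ∈ x :: l, u < v → (∀ z ∈ x :: l, u < z → v ≤ z) → Lk u v) :
    (x :: l).IsChain Lk := by
  induction l generalizing x with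
  | nil => exact List.isChain_singleton x
  | cons y l ih =>
    have hx : ∀ z ∈ y :: l, x < z := fun z hz => List.rel_of_pairwise_cons hp hz
    refine List.isChain_cons_cons.2 ⟨h x List.mem_cons_self y (by simp) (hx y (by simp))
      fun z hz hxz => ?_, ih y hp.of_cons fun u hu v hv huv hz =>
        h u (List.mem_cons_of_mem _ hu) v (List.mem_cons_of_mem _ hv) huv fun z hz' huz => ?_⟩
    · rcases List.mem_cons.1 hz with rfl | hz
      · exact absurd hxz (lt_irrefl _)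
      · rcases List.mem_cons.1 hz with rfl | hz
        · exact le_rfl
        · exact (List.rel_of_pairwise_cons hp.of_cons hz).le
    · rcases List.mem_cons.1 hz' with rfl | hz'
      · exact absurd huz (hx u hu).not_gt
      · exact hz z hz' huz

/-- **drift bound**: the sum over all admissible blocks `Y` (first point in `F`, consecutive points
related by `Lk`) of `c Y * ∏_Y θ`. -/
theorem drift (H : Cov X c g) (Tt : Tree X g ℓ L r a) (ha : ∀ v, 0 ≤ a v) (hB0 : ∀ x, 0 ≤ B x)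
    (hB : ∀ x ∈ X, c {x} ≤ B x) (hw : ∀ i, 0 ≤ w i) (hA : 0 ≤ wA) (hwB : 0 ≤ wB)
    (hs : ∑ i ∈ range L, w i + wA + wB ≤ 1) {θ : ι → ℝ} (hθ : ∀ v, 0 ≤ θ v)
    (F : ι → Prop) [DecidablePred F] (Lk : ι → ι → Prop) [DecidableRel Lk] {κ : ℝ} (hκ : κ < 1)
    (hk : ∀ u ∈ X, ∑ v ∈ X with u < v ∧ Lk u v, θ v * eta ℓ L r w a wA u v ≤ κ)
    (𝒴 : Finset (Finset ι)) (h1 : ∀ Y ∈ 𝒴, Y ⊆ X ∧ Y.Nonempty)
    (h2 : ∀ Y ∈ 𝒴, ∀ x ∈ Y, (∀ z ∈ Y, x ≤ z) → F x)
    (h3 : ∀ Y ∈ 𝒴, ∀ u ∈ Y, ∀ v ∈ Y, u < v → (∀ z ∈ Y, u < z → v ≤ z) → Lk u v) :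
    ∑ Y ∈ 𝒴, c Y * ∏ v ∈ Y, θ v ≤ (∑ x ∈ X with F x, θ x * B x ^ wB) / (1 - κ) := by
  set δ : ι → ℝ := fun x => if F x then θ x * B x ^ wB else 0 with hδ
  set η : ι → ι → ℝ := fun u v => if Lk u v then θ v * eta ℓ L r w a wA u v else 0 with hη
  have hδ0 : ∀ x, 0 ≤ δ x := fun x => by
    simp only [hδ]; split_ifs; exacts [mul_nonneg (hθ x) (Real.rpow_nonneg (hB0 x) _), le_rfl]
  have hη0 : ∀ u v, 0 ≤ η u v := fun u v => by
    simp only [hη]; split_ifs; exacts [mul_nonneg (hθ v) (eta_nonneg ha u v), le_rfl]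
  have key := link_sum hδ0 hη0 hκ X fun u hu => le_trans (le_of_eq (by
    rw [← filter_filter, sum_filter (s := X.filter fun v => u < v)])) (hk u hu)
  rw [sum_filter]
  refine le_trans ?_ key
  refine le_trans (sum_le_sum fun Y hY => ?_) (sum_le_sum_of_subset_of_nonneg
    (fun Y hY => mem_powerset.2 (h1 Y hY).1 : 𝒴 ⊆ X.powerset) fun Y _ _ => hd_nonneg hδ0 hη0 _)
  have hg := gm_bound H Tt hB hw hA hwB hs (h1 Y hY).1 (h1 Y hY).2
  have hm : ∀ v, v ∈ Y.sort (· ≤ ·) ↔ v ∈ Y := fun v => mem_sort _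
  have hp : (Y.sort (· ≤ ·)).Pairwise (· < ·) := (Y.sortedLT_sort).pairwise
  have hθY : ∏ v ∈ Y, θ v = ((Y.sort (· ≤ ·)).map θ).prod := by
    rw [← List.prod_toFinset _ (sort_nodup Y _), sort_toFinset]
  rw [hθY]
  generalize Y.sort (· ≤ ·) = l' at hg hm hp
  cases l' with
  | nil => obtain ⟨x, hx⟩ := (h1 Y hY).2; simpa using (hm x).2 hx
  | cons x l =>
    have hF : F x := h2 Y hY x ((hm x).1 List.mem_cons_self) fun z hz => by
      rcases List.mem_cons.1 ((hm z).2 hz) with rfl | hz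
      exacts [le_rfl, (List.rel_of_pairwise_cons hp hz).le]
    have hC := chain_of (Lk := Lk) x l hp fun u hu v hv huv hz =>
      h3 Y hY u ((hm u).1 hu) v ((hm v).1 hv) huv fun z hz' => hz z ((hm z).2 hz')
    simp only [hd, hδ, hη, if_pos hF, ch_ind _ x l hC, ch_mul, ch_pt, List.map_cons,
      List.prod_cons] at hg ⊢
    have := mul_le_mul_of_nonneg_right hg (mul_nonneg (hθ x)
      (List.prod_nonneg fun y hy => by obtain ⟨v, -, rfl⟩ := List.mem_map.1 hy; exact hθ v) :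
        0 ≤ θ x * (l.map θ).prod)
    linarith

end gm

end Crest.Agent.N337.WN
private theorem rz_9076beca8a : type_of% @_root_.Crest.Agent.N337.WN.ch.eq_def := @_root_.Crest.Agent.N337.WN.ch.eq_def -- L24
private theorem rz_c5a75e8028 : type_of% @_root_.Crest.Agent.N337.WN.ch.eq_1 := @_root_.Crest.Agent.N337.WN.ch.eq_1 -- L24
private theorem rz_dd1eea769c : type_of% @_root_.Crest.Agent.N337.WN.hd.eq_1 := @_root_.Crest.Agent.N337.WN.hd.eq_1 -- L29
private theorem rz_a6ba822bba : type_of% @_root_.Crest.Agent.N337.WN.sel.eq_def := @_root_.Crest.Agent.N337.WN.sel.eq_def -- L114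
private theorem rz_9c0b1b02af : type_of% @_root_.Crest.Agent.N337.WN.sel.eq_1 := @_root_.Crest.Agent.N337.WN.sel.eq_1 -- L114
end

-- ▼ part N337/W/TP

/-!
# Row 337, ENG (TP): the drift of the target potential at a fixed level, for one class of loops

`ls p b ψ = ∑_ξ Pw ξ ∑_{g loop of ξ} ψ g * ub b g * ∏_{other loops} (1 - ub b g')`.
`tp1` : if every loop `g` covers the set `cov g` of targets (empty if the birth is not allowed), then
`ls ((∏_{cov g} θ - 1)₊) ≤ Zg * (∑_{F x} θ x * (2 γ x σ)^(wB/2)) / (1 - κ)`.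
-/

set_option autoImplicit false
set_option linter.unusedSectionVars false

namespace Crest.Agent.N337.WN

open Finset Equiv Matrix Function Crest.Agent.N337.Rep Crest.Agent.N337.LY0
open Crest.Agent.N337.Gas (Lp lp ub)
open Crest.Agent.N337.Arc (Fld)

variable {Λ : Type} [Fintype Λ] [DecidableEq Λ] {T : ℕ} [NeZero T] (ex ey : Fin T → Λ)

/-- one-loop sums in the green measure. -/
noncomputable def ls (p : Fin T → ℝ) (b : Fin T × Λ → ℝ) (ψ : Lp T Λ → ℝ) : ℝ :=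
  ∑ ξ, Pw p ξ * ∑ c : Orb (Sg ex ey ξ), ψ (lp ex ey ξ (bp c)) * lw (Sg ex ey ξ) b (bp c)

variable {ex ey} {p : Fin T → ℝ} {b : Fin T × Λ → ℝ} {ψ ψ' : Lp T Λ → ℝ}

lemma ls_mono (hp : ∀ s, 0 ≤ p s ∧ p s ≤ 1) (hb : ∀ v, 0 ≤ b v ∧ b v ≤ 1)
    (h : ∀ ξ v, Pw p ξ ≠ 0 → lw (Sg ex ey ξ) b v ≠ 0 → ψ (lp ex ey ξ v) ≤ ψ' (lp ex ey ξ v)) :
    ls ex ey p b ψ ≤ ls ex ey p b ψ' := by
  refine sum_le_sum fun ξ _ => ?_
  by_cases h1 : Pw p ξ = 0
  · simp [h1]
  refine mul_le_mul_of_nonneg_left (sum_le_sum fun c _ => ?_) (Pw_nonneg hp ξ)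
  by_cases h2 : lw (Sg ex ey ξ) b (bp c) = 0
  · simp [h2]
  exact mul_le_mul_of_nonneg_right (h ξ _ h1 h2) (lw_nonneg _ hb _)

lemma ls_zero : ls ex ey p b (fun _ => 0) = 0 := by simp [ls]

lemma ls_nonneg (hp : ∀ s, 0 ≤ p s ∧ p s ≤ 1) (hb : ∀ v, 0 ≤ b v ∧ b v ≤ 1) (h : ∀ g, 0 ≤ ψ g) :
    0 ≤ ls ex ey p b ψ :=
  (ls_zero (ex := ex) (ey := ey) (p := p) (b := b)).ge.trans (ls_mono hp hb fun _ _ _ _ => h _)

lemma ls_add : ls ex ey p b (fun g => ψ g + ψ' g) = ls ex ey p b ψ + ls ex ey p b ψ' := by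
  simp only [ls, add_mul, sum_add_distrib, mul_add]

lemma ls_mul (a : ℝ) : ls ex ey p b (fun g => ψ g * a) = ls ex ey p b ψ * a := by
  simp only [ls, sum_mul, mul_sum]
  exact sum_congr rfl fun _ _ => sum_congr rfl fun _ _ => by ring

lemma ls_sum {κ : Type} (s : Finset κ) (F : κ → Lp T Λ → ℝ) :
    ls ex ey p b (fun g => ∑ i ∈ s, F i g) = ∑ i ∈ s, ls ex ey p b (F i) := by
  classical
  induction s using Finset.induction_on with
  | empty => simpa using ls_zero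
  | insert i s hi ih => simp only [sum_insert hi, ls_add, ih]

/-- a test function carried by the loops through `v`. -/
lemma ls_pt (v : Fin T × Λ) (h : ∀ g, ψ g ≠ 0 → v ∈ g.2) :
    ls ex ey p b ψ = ∑ ξ, Pw p ξ * (ψ (lp ex ey ξ v) * lw (Sg ex ey ξ) b v) := by
  refine sum_congr rfl fun ξ _ => ?_
  rw [sum_eq_single (o (Sg ex ey ξ) v), Gas.lp_eq_iff.2 (o_bp _), lw_congr _ b (o_bp _)]
  · intro c _ hc
    by_contra h0
    exact hc ((o_bp c).symm.trans (Gas.mem_obv.1 (h _ (left_ne_zero_of_mul h0))).symm)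
  · simp


section tp
variable {ι : Type} [LinearOrder ι]

/-- `x` is the first element of `Y`. -/
def Fst (x : ι) (Y : Finset ι) : Prop := x ∈ Y ∧ ∀ z ∈ Y, x ≤ z

instance (x : ι) (Y : Finset ι) : Decidable (Fst x Y) := by unfold Fst; infer_instance

variable {pt : ι → Fin T × Λ} {X : Finset ι} {cov : Lp T Λ → Finset ι} {g : ι → ι → ℝ}

/-- covering sets: inside `X`, on the loop, Green function dominated by `g`. -/
structure Cv (ex ey : Fin T → Λ) (p : Fin T → ℝ) (b : Fin T × Λ → ℝ) (pt : ι → Fin T × Λ)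
    (X : Finset ι) (cov : Lp T Λ → Finset ι) (g : ι → ι → ℝ) : Prop where
  inj : Set.InjOn pt X
  sub : ∀ l, cov l ⊆ X
  mem : ∀ l, ∀ x ∈ cov l, pt x ∈ l.2
  g0 : ∀ v u, 0 ≤ g v u
  gr : ∀ l, ∀ v ∈ cov l, ∀ u ∈ cov l, v ≠ u → Gi ex ey p b (pt v) (pt u) ≤ g v u

/-- rate of the loops with first target `x` that cover `Y`. -/
noncomputable def rt (ex ey : Fin T → Λ) (p : Fin T → ℝ) (b : Fin T × Λ → ℝ)
    (cov : Lp T Λ → Finset ι) (x : ι) (Y : Finset ι) : ℝ :=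
  ls ex ey p b (fun l => if Fst x (cov l) ∧ Y ⊆ cov l then 1 else 0) / Zg ex ey p b

lemma rt_nonneg (hp : ∀ s, 0 ≤ p s ∧ p s ≤ 1) (hb : Fld b) (x : ι) (Y : Finset ι) :
    0 ≤ rt ex ey p b cov x Y :=
  div_nonneg (ls_nonneg hp hb.mem fun _ => by split_ifs <;> norm_num) (Zg_pos ex ey hp hb).le

lemma rt_anti (hp : ∀ s, 0 ≤ p s ∧ p s ≤ 1) (hb : Fld b) (x : ι) {Y' Y : Finset ι} (h : Y' ⊆ Y) :
    rt ex ey p b cov x Y ≤ rt ex ey p b cov x Y' :=
  div_le_div_of_nonneg_right (ls_mono hp hb.mem fun ξ v _ _ => by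
    by_cases h1 : Fst x (cov (lp ex ey ξ v)) ∧ Y ⊆ cov (lp ex ey ξ v)
    · rw [if_pos h1, if_pos ⟨h1.1, h.trans h1.2⟩]
    · rw [if_neg h1]; split_ifs <;> norm_num) (Zg_pos ex ey hp hb).le

lemma Cv.n0 (H : Cv ex ey p b pt X cov g) (hp : ∀ s, 0 ≤ p s ∧ p s ≤ 1) (hb : Fld b) (x : ι)
    (Y : Finset ι) (he : Even Y.card) (hne : Y.Nonempty) (a : ι → ℝ) (ha : ∀ v ∈ Y, 0 < a v)
    (q : ℝ) (hq : ∑ v ∈ Y, ∑ u ∈ Y.erase v, a v * a u * g v u ≤ q) :
    rt ex ey p b cov x Y ≤ 2 ^ Y.card * Real.exp q / ∏ v ∈ Y, a v := by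
  have hZ := Zg_pos ex ey hp hb
  by_cases hex : ∃ l, Y ⊆ cov l
  swap
  · rw [rt, show (fun l => if Fst x (cov l) ∧ Y ⊆ cov l then (1 : ℝ) else 0) = fun _ => 0 from
      funext fun l => if_neg fun h => hex ⟨l, h.2⟩, ls_zero, zero_div]
    exact div_nonneg (by positivity) (prod_pos ha).le
  obtain ⟨l, hl⟩ := hex
  obtain ⟨y, hy⟩ := hne
  have : Nonempty ι := ⟨y⟩
  have hinj : Set.InjOn pt Y := H.inj.mono (coe_subset.2 (hl.trans (H.sub l)))
  have hi : ∀ v ∈ Y, invFunOn pt Y (pt v) = v := fun v hv => hinj.leftInvOn_invFunOn hv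
  rw [rt, div_le_iff₀' hZ, ls_pt (pt y) fun l h => H.mem l y
    ((of_not_not fun h' => h (if_neg h')).2 hy)]
  have key := wn0 ex ey hp hb.mem hZ (Y := Y.image pt) (by rwa [card_image_of_injOn hinj])
    ⟨pt y, mem_image_of_mem _ hy⟩ (a := fun v => a (invFunOn pt Y v))
    (g := fun v u => g (invFunOn pt Y v) (invFunOn pt Y u)) (q := q)
    (by simp only [forall_mem_image]
        exact fun v hv => by rw [hi v hv]; exact ha v hv) (fun _ _ => H.g0 _ _)
    (by simp only [forall_mem_image]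
        exact fun v hv u hu h => by
          rw [hi v hv, hi u hu]; exact H.gr l v (hl hv) u (hl hu) fun e => h (e ▸ rfl))
    (by rw [sum_image hinj]
        refine le_trans (le_of_eq (sum_congr rfl fun v hv => ?_)) hq
        rw [show (Y.image pt).erase (pt v) = (Y.erase v).image pt from ?_,
          sum_image (hinj.mono (coe_subset.2 (erase_subset v Y)))]
        · exact sum_congr rfl fun u hu => by rw [hi v hv, hi u (mem_of_mem_erase hu)]
        · ext z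
          simp only [mem_erase, mem_image]
          exact ⟨fun ⟨h1, u, h2, h3⟩ => ⟨u, ⟨fun e => h1 (e ▸ h3.symm), h2⟩, h3⟩,
            fun ⟨u, ⟨h1, h2⟩, h3⟩ => ⟨fun e => h1 (hinj h2 hv (h3.trans e)), u, h2, h3⟩⟩)
    (fun ξ => (if Fst x (cov (lp ex ey ξ (pt y))) ∧ Y ⊆ cov (lp ex ey ξ (pt y)) then 1 else 0) *
      lw (Sg ex ey ξ) b (pt y)) fun ξ => ?_
  · rwa [card_image_of_injOn hinj, prod_image hinj,
      prod_congr rfl fun v hv => show a (invFunOn pt Y (pt v)) = a v by rw [hi v hv]] at key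
  split_ifs with h
  · refine Or.inr ⟨pt y, ?_, (one_mul _).le⟩
    simp only [forall_mem_image]
    exact fun z hz => Gas.mem_obv.1 (H.mem _ z (h.2 hz))
  · exact Or.inl (zero_mul _).le

lemma Cv.toCov (H : Cv ex ey p b pt X cov g) (hp : ∀ s, 0 ≤ p s ∧ p s ≤ 1) (hb : Fld b) (x : ι) :
    Cov X (fun Y => min 1 (rt ex ey p b cov x Y)) g where
  nonneg Y := le_min zero_le_one (rt_nonneg hp hb x Y)
  le_one _ := min_le_left _ _
  anti _ _ h _ _ := min_le_min_left _ (rt_anti hp hb x h)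
  g0 := H.g0
  n0 Y _ he hne a ha q hq := (min_le_right _ _).trans (H.n0 hp hb x Y he hne a ha q hq)

variable {ℓ : ι → ι → ℕ} {L : ℕ} {r w : ℕ → ℝ} {a : ι → ℝ} {wA wB : ℝ}

lemma Cv.pair (H : Cv ex ey p b pt X cov g) (hp : ∀ s, 0 ≤ p s ∧ p s ≤ 1) (hb : Fld b)
    (Tt : Tree X g ℓ L r a) (x : ι) {Y : Finset ι} (hY : Y ⊆ X) {u v : ι} (hu : u ∈ Y)
    (hv : v ∈ Y) (huv : u ≠ v) : rt ex ey p b cov x Y ≤ 1 := by
  have h6 : ∀ z ∈ X, 0 < a z := fun z hz => lt_of_lt_of_le (by norm_num) (Tt.age z hz)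
  have hs : ({u, v} : Finset ι) ⊆ X := insert_subset (hY hu) (singleton_subset_iff.2 (hY hv))
  have hr : ∀ z ∈ ({u, v} : Finset ι), ∑ y ∈ ({u, v} : Finset ι).erase z, a z * a y * g z y ≤ 1 :=
    fun z hz => le_trans (sum_le_sum_of_subset_of_nonneg (erase_subset_erase z hs) fun y hy _ =>
      mul_nonneg (mul_nonneg (h6 z (hs hz)).le (h6 y (mem_of_mem_erase hy)).le) (H.g0 z y))
      (Tt.arow z (hs hz))
  refine (rt_anti hp hb x (insert_subset hu (singleton_subset_iff.2 hv))).trans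
    ((H.n0 hp hb x {u, v} (by rw [card_pair huv]; decide) (insert_nonempty _ _) a
      (fun z hz => h6 z (hs hz)) 2 ((sum_le_sum hr).trans (by simp [card_pair huv]))).trans ?_)
  rw [card_pair huv, prod_pair huv, div_le_one (mul_pos (h6 u (hY hu)) (h6 v (hY hv)))]
  have e : Real.exp 2 = Real.exp 1 ^ 2 := by rw [← Real.exp_nat_mul]; norm_num
  have h1 : Real.exp 1 ^ 2 ≤ 3 ^ 2 :=
    pow_le_pow_left₀ (Real.exp_pos 1).le (by linarith [Real.exp_one_lt_d9]) 2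
  nlinarith [Tt.age u (hY hu), Tt.age v (hY hv)]

lemma Cv.one (H : Cv ex ey p b pt X cov g) (hp : ∀ s, 0 ≤ p s ∧ p s ≤ 1) (hb : Fld b) {σ : ℝ}
    (hσ0 : 0 ≤ σ) (hσ : ∀ l, (cov l).Nonempty → ub b l ≤ σ) (x : ι) :
    min 1 (rt ex ey p b cov x {x}) ≤ 2 * σ := by
  rcases le_or_gt (1 / 2) σ with h | h
  · exact (min_le_left _ _).trans (by linarith)
  refine (min_le_right _ _).trans ?_
  rw [rt, div_le_iff₀' (Zg_pos ex ey hp hb), ls_pt (pt x) fun l h => H.mem l x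
    ((of_not_not fun h' => h (if_neg h')).1.1)]
  refine (b1 ex ey hp hb.mem hσ0 (by linarith) _ fun ξ => ?_).trans
    (mul_le_mul_of_nonneg_left ?_ (Zg_pos ex ey hp hb).le)
  · split_ifs with h'
    · exact Or.inr ⟨pt x, hσ _ ⟨x, h'.1.1⟩, (one_mul _).le⟩
    · exact Or.inl (zero_mul _).le
  · rw [div_le_iff₀ (by linarith)]; nlinarith

/-- **(TP1)** the drift of the target potential for one class of loops (weight at most `σ`).
`γ x` bounds the rate of the loops with first target `x`; for FREE points (`θ x ≤ 1`) take `γ x = 1`. -/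
theorem tp1 (H : Cv ex ey p b pt X cov g) (hp : ∀ s, 0 ≤ p s ∧ p s ≤ 1) (hb : Fld b)
    (Tt : Tree X g ℓ L r a) (ha : ∀ v, 0 ≤ a v) (hw : ∀ i, 0 ≤ w i) (hA : 0 ≤ wA) (hwB : 0 ≤ wB)
    (hs : ∑ i ∈ range L, w i + wA + wB ≤ 1) {θ γ : ι → ℝ} (hθ : ∀ v, 0 ≤ θ v) (hγ0 : ∀ v, 0 ≤ γ v)
    (hγ : ∀ x ∈ X, (θ x ≤ 1 ∧ 1 ≤ γ x) ∨ (γ x ≤ 1 ∧
      ls ex ey p b (fun l => if Fst x (cov l) then 1 else 0) ≤ Zg ex ey p b * γ x))
    {σ : ℝ} (hσ0 : 0 ≤ σ) (hσ : ∀ l, (cov l).Nonempty → ub b l ≤ σ)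
    (F : ι → Prop) [DecidablePred F] (Lk : ι → ι → Prop) [DecidableRel Lk] {κ : ℝ} (hκ : κ < 1)
    (hk : ∀ u ∈ X, ∑ v ∈ X with u < v ∧ Lk u v, θ v * eta ℓ L r w a wA u v ≤ κ)
    (hF : ∀ l x, Fst x (cov l) → F x)
    (hL : ∀ l, ∀ u ∈ cov l, ∀ v ∈ cov l, u < v → (∀ z ∈ cov l, u < z → v ≤ z) → Lk u v) :
    ls ex ey p b (fun l => max (∏ x ∈ cov l, θ x - 1) 0) ≤
      Zg ex ey p b * ((∑ x ∈ X with F x, θ x * (2 * γ x * σ) ^ (wB / 2)) / (1 - κ)) := by
  classical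
  have hZ := Zg_pos ex ey hp hb
  set 𝒴 : ι → Finset (Finset ι) := fun x => X.powerset.filter fun Y =>
    Fst x Y ∧ ¬ (Y = {x} ∧ θ x ≤ 1) ∧
      ∀ u ∈ Y, ∀ v ∈ Y, u < v → (∀ z ∈ Y, u < z → v ≤ z) → Lk u v with h𝒴
  have hθY : ∀ Y : Finset ι, 0 ≤ ∏ x ∈ Y, θ x := fun Y => prod_nonneg fun x _ => hθ x
  have r1 : ∀ x, rt ex ey p b cov x {x} =
      ls ex ey p b (fun l => if Fst x (cov l) then 1 else 0) / Zg ex ey p b := fun x => by
    rw [rt]; congr 2; funext l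
    exact if_congr ⟨fun h => h.1, fun h => ⟨h, singleton_subset_iff.2 h.1⟩⟩ rfl rfl
  have step1 : ls ex ey p b (fun l => max (∏ x ∈ cov l, θ x - 1) 0) ≤
      ∑ x ∈ X with F x, ∑ Y ∈ 𝒴 x, Zg ex ey p b * (rt ex ey p b cov x Y * ∏ z ∈ Y, θ z) := by
    simp only [rt, ← mul_assoc, mul_div_cancel₀ _ hZ.ne', ← ls_mul, ← ls_sum]
    refine ls_mono hp hb.mem fun ξ v _ _ => ?_
    generalize lp ex ey ξ v = l
    have hn : ∀ x Y, 0 ≤ (if Fst x (cov l) ∧ Y ⊆ cov l then (1 : ℝ) else 0) * ∏ z ∈ Y, θ z :=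
      fun x Y => mul_nonneg (by split_ifs <;> norm_num) (hθY Y)
    refine max_le ?_ (sum_nonneg fun x _ => sum_nonneg fun Y _ => hn x Y)
    by_cases h1 : ∏ x ∈ cov l, θ x ≤ 1
    · exact (sub_nonpos.2 h1).trans (sum_nonneg fun x _ => sum_nonneg fun Y _ => hn x Y)
    have hne : (cov l).Nonempty := nonempty_iff_ne_empty.2 fun h => h1 (by simp [h])
    have hx : Fst ((cov l).min' hne) (cov l) := ⟨min'_mem _ _, fun z hz => min'_le _ z hz⟩
    generalize (cov l).min' hne = x at hx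
    refine le_trans ?_ (single_le_sum (fun x _ => sum_nonneg fun Y _ => hn x Y)
      (mem_filter.2 ⟨H.sub l hx.1, hF l x hx⟩ : x ∈ X.filter F))
    refine le_trans ?_ (single_le_sum (fun Y _ => hn x Y) (mem_filter.2
      ⟨mem_powerset.2 (H.sub l), hx, fun h => h1 (by simpa [h.1] using h.2), hL l⟩ : cov l ∈ 𝒴 x))
    rw [if_pos ⟨hx, subset_rfl⟩]; linarith
  refine step1.trans ?_
  rw [sum_div, mul_sum]
  refine sum_le_sum fun x hx => ?_
  have hxX := (mem_filter.1 hx).1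
  rw [← mul_sum]
  refine mul_le_mul_of_nonneg_left ?_ hZ.le
  have hle : ∀ Y ∈ 𝒴 x, rt ex ey p b cov x Y ≤ 1 := by
    intro Y hY
    obtain ⟨h1, h2, h3, -⟩ := mem_filter.1 hY
    by_cases h4 : Y = {x}
    · rcases hγ x hxX with h | h
      · exact absurd ⟨h4, h.1⟩ h3
      · rw [h4, r1, div_le_one hZ]
        exact h.2.trans (mul_le_of_le_one_right hZ.le h.1)
    · obtain ⟨v, hv, hvx⟩ : ∃ v ∈ Y, v ≠ x := by
        by_contra hh; push Not at hh
        exact h4 (eq_singleton_iff_unique_mem.2 ⟨h2.1, hh⟩)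
      exact H.pair hp hb Tt x (mem_powerset.1 h1) hv h2.1 hvx
  have hB : min 1 (rt ex ey p b cov x {x}) ≤ √(2 * γ x * σ) := by
    have h0 := ((H.toCov hp hb x).nonneg {x})
    have h1 := H.one hp hb hσ0 hσ x
    have h2 : min 1 (rt ex ey p b cov x {x}) ≤ γ x := by
      rcases hγ x hxX with h | h
      · exact (min_le_left _ _).trans h.2
      · exact (min_le_right _ _).trans (by rw [r1, div_le_iff₀' hZ]; exact h.2)
    refine Real.le_sqrt_of_sq_le ?_
    have := mul_le_mul h2 h1 h0 (hγ0 x)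
    nlinarith
  have key := drift (H.toCov hp hb x) Tt ha (B := fun z => if z = x then √(2 * γ x * σ) else 1)
    (fun z => by split_ifs; exacts [Real.sqrt_nonneg _, zero_le_one])
    (fun z _ => by split_ifs with h; exacts [by rw [h]; exact hB, min_le_left _ _]) hw hA hwB hs hθ
    (fun z => z = x) Lk hκ hk (𝒴 x)
    (fun Y hY => ⟨mem_powerset.1 (mem_filter.1 hY).1, x, (mem_filter.1 hY).2.1.1⟩)
    (fun Y hY z hz h => le_antisymm (h x (mem_filter.1 hY).2.1.1) ((mem_filter.1 hY).2.1.2 z hz))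
    fun Y hY => (mem_filter.1 hY).2.2.2
  rw [filter_eq' X x, if_pos hxX, sum_singleton, if_pos rfl, Real.sqrt_eq_rpow,
    ← Real.rpow_mul (mul_nonneg (mul_nonneg zero_le_two (hγ0 x)) hσ0),
    show 1 / 2 * wB = wB / 2 by ring] at key
  exact le_trans (sum_le_sum fun Y hY => by rw [min_eq_right (hle Y hY)]) key

end tp

end Crest.Agent.N337.WN
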