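import Crest.Agent.N337.W.TP
import Crest.Agent.N337.G1.Defs

/-!
# Row 337: bridges between the loop models and the Green bounds G1

* `grn` : the column `Gi · u` is a Green function in the sense of `G1.Grn`.
* `Env.child` : pinning and killing a point set gives again an environment.
* `pin_pin`, `kill_kill`, `gas_pin` : iterated pinning.
* `b2c` : the exit bound (B2) in a child model.
-/

set_option autoImplicit false
set_option linter.unusedSectionVars false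

namespace Crest.Agent.N337.WN

open Finset Equiv Matrix Function Crest.Agent.N337.Rep Crest.Agent.N337.LY0 Crest.Agent.N337.Arc

section gen
variable {Λ : Type} [Fintype Λ] [DecidableEq Λ] {T : ℕ} [NeZero T] (ex ey : Fin T → Λ)
  {p : Fin T → ℝ} {b : Fin T × Λ → ℝ}

lemma Gf_nonneg (hp : ∀ s, 0 ≤ p s ∧ p s ≤ 1) (hb : Fld b) {t : Fin T × Λ → ℝ} (ht : ∀ v, 0 ≤ t v)
    (u : Fin T × Λ) : 0 ≤ Gf ex ey p b t u := by
  refine nonneg_of_mul_nonneg_right ?_ (hb.detA_pos ex ey hp)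
  rw [← avg_cof ex ey hb hp t u]
  refine sum_nonneg fun ξ _ => mul_nonneg (Pw_nonneg hp ξ) (mul_nonneg (hb.det_pos ex ey ξ).le ?_)
  refine nonneg_of_mul_nonneg_right ?_ (sub_pos.2 (hb.pr_lt ex ey ξ (o _ u)))
  rw [← aw_eq _ b t (hb.det_pos ex ey ξ).ne' u]
  exact sum_nonneg fun j _ => mul_nonneg (ht _) (prod_nonneg fun i _ => (hb.mem _).1)

lemma Gi_nonneg (hp : ∀ s, 0 ≤ p s ∧ p s ≤ 1) (hb : Fld b) (v u : Fin T × Λ) :
    0 ≤ Gi ex ey p b v u := by
  rw [← Gf_single]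
  exact Gf_nonneg ex ey hp hb (fun w => by rw [Pi.single_apply]; split_ifs <;> norm_num) u

lemma Gi_eq (hA : Zg ex ey p b ≠ 0) : Gi ex ey p b = 1 + Kb ex ey p * diagonal b * Gi ex ey p b := by
  have h := mul_nonsing_inv (1 - Kb ex ey p * diagonal b) (Ne.isUnit hA)
  rw [Matrix.sub_mul, Matrix.one_mul] at h
  exact sub_eq_iff_eq_add.1 h

/-- **the Green function of G1.** -/
theorem grn (hp : ∀ s, 0 ≤ p s ∧ p s ≤ 1) (hb : Fld b) {Y : ℝ} (hY : 0 ≤ Y ∧ Y < 1)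
    (hk : ∀ x, b (0, x) ≤ Y) (u : Fin T × Λ) :
    G1.Grn ex ey p b u Y fun v => Gi ex ey p b v u where
  hp := hp
  hb := hb.mem
  hY := hY
  kill := ⟨0, hk⟩
  nn v := Gi_nonneg ex ey hp hb v u
  eq s y := by
    have h := congrFun (congrFun (Gi_eq ex ey (Zg_pos ex ey hp hb).ne') (s + 1, y)) u
    rw [h, Matrix.add_apply, one_apply, mul_apply, Fintype.sum_prod_type, sum_eq_single s]
    · congr 1
      simp only [mul_diagonal, Kb_apply, if_true, add_mul, sum_add_distrib, mul_assoc, ← mul_sum,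
        ite_mul, one_mul, zero_mul, sum_ite_eq, mem_univ]
      congr 2
      rw [sum_eq_single (swap (ex s) (ey s) y)]
      · simp
      · intro x _ hx
        exact if_neg fun e => hx (by rw [e, swap_apply_self])
      · simp
    · intro r _ hr
      have : ¬ s + 1 = r + 1 := fun e => hr (add_right_cancel e).symm
      simp [mul_diagonal, Kb_apply, this]
    · simp


lemma kill_le (hb : ∀ v, 0 ≤ b v) (O : Finset (Fin T × Λ)) (v : Fin T × Λ) : kill b O v ≤ b v := by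
  unfold kill; split_ifs; exacts [hb v, le_rfl]

lemma gas_kill (b : Fin T × Λ → ℝ) (O : Finset (Fin T × Λ)) : Gas.kill b O = kill b O := rfl

lemma kill_kill (b : Fin T × Λ → ℝ) (O O' : Finset (Fin T × Λ)) :
    kill (kill b O) O' = kill b (O ∪ O') := by
  funext v
  by_cases h : v ∈ O <;> by_cases h' : v ∈ O' <;> simp [kill, h, h']

lemma pin_pin (p : Fin T → ℝ) {A B : Finset (Fin T)} {ξ ξ' : Fin T → Bool}
    (h : ∀ s ∈ A, ξ' s = ξ s) : pin (pin p A ξ) B ξ' = pin p (A ∪ B) ξ' := by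
  funext s
  by_cases hB : s ∈ B
  · simp [pin, hB]
  by_cases hA : s ∈ A
  · simp [pin, hA, hB, h s hA]
  · simp [pin, hA, hB]

variable {ex ey} in
lemma gas_pin (p : Fin T → ℝ) {A : Finset (Gas.Lp T Λ)} {ξ : Fin T → Bool}
    (hA : A ⊆ Gas.L ex ey ξ) : Gas.pin ex ey p A = pin p (tch ex ey (Gas.pts A)) ξ := by
  funext s
  unfold Gas.pin pin
  rw [Gas.cn_eq hA]
  by_cases hs : Gas.tch ex ey (Gas.pts A) s
  · rw [if_pos hs, if_pos hs, if_pos ((mem_tch ex ey).2 hs)]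
  · rw [if_neg hs, if_neg fun h => hs ((mem_tch ex ey).1 h)]



/-- **(B2) in the child model** of the point set `O`: only possible coins matter, the Green function
is that of the model with `O` and the exit arc pinned and killed. -/
theorem b2c (hp : ∀ s, 0 ≤ p s ∧ p s ≤ 1) (hb : Fld b) {γ : ℝ} (h0 : 0 ≤ γ) (h1 : γ < 1)
    (O : Finset (Fin T × Λ)) (ξ0 : Fin T → Bool) (Out : Fin T × Λ → Prop) (x : Fin T × Λ)
    (ψ : Gas.Lp T Λ → ℝ) (hx : ∀ g, ψ g ≠ 0 → x ∈ g.2) (hψ : ∀ g, ψ g ≤ 1)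
    (hW : ∀ ξ, Pw (pin p (tch ex ey O) ξ0) ξ ≠ 0 → 0 < ψ (Gas.lp ex ey ξ x) →
      Disjoint (Gas.obv ex ey ξ x) O → ∃ n, Exit ex ey Out x n ξ ∧
      Gi ex ey (pin p (tch ex ey (O ∪ exA ex ey x n ξ)) ξ) (kill b (O ∪ exA ex ey x n ξ))
        x (arc ex ey x ξ (n + 1)) ≤ γ) :
    ls ex ey (pin p (tch ex ey O) ξ0) (kill b O) ψ ≤
      Zg ex ey (pin p (tch ex ey O) ξ0) (kill b O) * (γ / (1 - γ)) := by
  classical
  rw [ls_pt x hx]
  refine le_trans (le_of_eq ?_) (b2 ex ey (pin_mem hp _ ξ0) (hb.kill O) h0 h1 Out x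
    (fun ξ => if Pw (pin p (tch ex ey O) ξ0) ξ = 0 then 0 else
      ψ (Gas.lp ex ey ξ x) * lw (Sg ex ey ξ) (kill b O) x) fun ξ => ?_)
  · exact sum_congr rfl fun ξ _ => by split_ifs with h <;> simp [h]
  split_ifs with h
  · exact Or.inl le_rfl
  have hl := lw_nonneg (Sg ex ey ξ) (hb.kill O).mem x
  rcases le_or_gt (ψ (Gas.lp ex ey ξ x)) 0 with h2 | h2
  · exact Or.inl (mul_nonpos_of_nonpos_of_nonneg h2 hl)
  by_cases h3 : Disjoint (Gas.obv ex ey ξ x) O
  · obtain ⟨n, h4, h5⟩ := hW ξ h h2 h3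
    refine Or.inr ⟨mul_le_of_le_one_left hl (hψ _), n, h4, ?_⟩
    rwa [pin_pin p (Pw_pin_supp h), kill_kill, ← tch_union]
  · obtain ⟨v, h4, h5⟩ := not_disjoint_iff.1 h3
    refine Or.inl (le_of_eq ?_)
    rw [lw_eq, pr_zero (a := kill b O) (Gas.mem_obv.1 h4) (if_pos h5), zero_mul, mul_zero]

/-- **(B0)** for test functions carried by the loops through `x`. -/
theorem b0c (hp : ∀ s, 0 ≤ p s ∧ p s ≤ 1) (hb : Fld b) (x : Fin T × Λ) (ψ : Gas.Lp T Λ → ℝ)
    (hx : ∀ g, ψ g ≠ 0 → x ∈ g.2) (hψ : ∀ g, ψ g ≤ 1) :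
    ls ex ey p b ψ ≤ Zg ex ey p b * (Gi ex ey p b x x - 1) := by
  rw [ls_pt x hx, ← b0 ex ey hp hb x]
  exact sum_le_sum fun ξ _ => mul_le_mul_of_nonneg_left
    (mul_le_of_le_one_left (lw_nonneg _ hb.mem x) (hψ _)) (Pw_nonneg hp ξ)

lemma exA_sub (x : Fin T × Λ) (n : ℕ) (ξ : Fin T → Bool) : exA ex ey x n ξ ⊆ Gas.obv ex ey ξ x :=
  fun v hv => by
    obtain ⟨i, -, rfl⟩ := mem_image.1 hv
    exact Gas.mem_obv.2 (o_it _ i x)

end gen

section env
open Crest.MathPhysics.SpinModel G1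
variable {L n T : ℕ} [NeZero L] [NeZero T] {ex ey : Fin T → Tor 3 L × Fin n}
  {p p0 b0 : Fin T → ℝ} {b : Fin T × (Tor 3 L × Fin n) → ℝ}
  {R : Finset (Fin T × (Tor 3 L × Fin n))} {Z : Finset (Tor 3 L)}

/-- **child environments.** -/
theorem Env.child (h : Env ex ey p p0 b b0 R Z) (O : Finset (Fin T × (Tor 3 L × Fin n)))
    {ξ : Fin T → Bool} (hξ : Pw p ξ ≠ 0) :
    Env ex ey (pin p (Arc.tch ex ey O) ξ) p0 (kill b O) b0 (R ∪ O) Z where
  nn s hs := h.nn s fun h0 => by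
    have h1 := prod_ne_zero_iff.1 hξ s (mem_univ s)
    revert hs h1
    unfold pin wb
    split_ifs <;> simp [h0]
  bR v hv := by
    unfold kill; split_ifs with h1
    exacts [rfl, h.bR v ((mem_union.1 hv).resolve_right h1)]
  bZ v hv := by unfold kill; split_ifs; exacts [rfl, h.bZ v hv]
  bf v hv hz := by
    rw [mem_union, not_or] at hv
    rw [kill, if_neg hv.2, h.bf v hv.1 hz]
  free s h1 h2 := by
    rw [mem_union, not_or] at h1 h2
    rw [pin, if_neg fun k => ((mem_tch ex ey).1 k).elim h1.2 h2.2]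
    exact h.free s h1.1 h2.1

end env

end Crest.Agent.N337.WN
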